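import Vale.Agent.P365.X.Reg
import Vale.Agent.P365.L1.Alg

set_option linter.all false

/-!
# P365 / T2 / H413 / Apri: the a priori bound for fractional moments of the Green function, for
dressed potentials `w x (v x)` whose real part has a bounded density and whose imaginary part is
an arbitrary negative function of the same variable.
-/

namespace P365T2.H413

open MeasureTheory Set Complex P365L Matrix
open scoped ENNReal Real

/-! ### one variable -/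

/-- single-site law and dressed potential: bounded, real part with bounded density -/
structure Site1 {Ω : Type*} [MeasurableSpace Ω] (L C0 : ℝ) (μ : Measure Ω) (w : Ω → ℂ) : Prop where
  prob : IsProbabilityMeasure μ
  meas : Measurable w
  bdd : ∀ᵐ v ∂μ, ‖w v‖ ≤ L
  dens : μ.map (fun v => (w v).re) ≤ ENNReal.ofReal C0 • (volume : Measure ℝ)

variable {Ω Ω₁ Ω₂ : Type*} [MeasurableSpace Ω] [MeasurableSpace Ω₁] [MeasurableSpace Ω₂]
  {L C0 q : ℝ} {μ : Measure Ω} {μ₁ : Measure Ω₁} {μ₂ : Measure Ω₂} {w : Ω → ℂ} {w₁ : Ω₁ → ℂ}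
  {w₂ : Ω₂ → ℂ}

/-- negative power -/
theorem npow_anti {a b : ℝ≥0∞} (h : a ≤ b) (hq : 0 ≤ q) : b ^ (-q) ≤ a ^ (-q) := by
  rw [ENNReal.rpow_neg, ENNReal.rpow_neg, ENNReal.inv_le_inv]
  exact ENNReal.rpow_le_rpow h hq

theorem npow_mul {a b : ℝ≥0∞} (ha : a ≠ 0) (ha' : a ≠ ∞) (hq : 0 ≤ q) :
    (a * b) ^ (-q) = a ^ (-q) * b ^ (-q) := by
  rw [ENNReal.rpow_neg, ENNReal.rpow_neg, ENNReal.rpow_neg, ENNReal.mul_rpow_of_nonneg _ _ hq,
    ENNReal.mul_inv]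
  · left
    exact (ENNReal.rpow_pos (pos_iff_ne_zero.2 ha) ha').ne'
  · left
    exact ENNReal.rpow_ne_top_of_nonneg hq ha'

theorem lint_enorm (q : ℝ) :
    ∫⁻ x in Ioo (-1 : ℝ) 1, ‖x‖ₑ ^ (-q) = P365L.X.I2 q := by
  unfold P365L.X.I2
  refine lintegral_congr_ae ?_
  have h0 : ∀ᵐ x : ℝ ∂(volume.restrict (Ioo (-1 : ℝ) 1)), x ≠ 0 :=
    ae_restrict_of_ae (Measure.ae_ne volume 0)
  filter_upwards [h0] with x hx
  rw [← ENNReal.ofReal_rpow_of_pos (abs_pos.2 hx), Real.enorm_eq_ofReal_abs]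

/-- the constant of one variable -/
noncomputable def K1 (L C0 q : ℝ) : ℝ≥0∞ :=
  ENNReal.ofReal (2 ^ q) + ENNReal.ofReal ((2 * L) ^ q) * (1 + ENNReal.ofReal C0 * P365L.X.I2 q)

theorem K1_ne_top (hq : q < 1) : K1 L C0 q ≠ ∞ := by
  unfold K1
  have := P365L.X.I2_ne_top hq
  refine ENNReal.add_ne_top.2 ⟨ENNReal.ofReal_ne_top, ?_⟩
  refine ENNReal.mul_ne_top ENNReal.ofReal_ne_top ?_
  refine ENNReal.add_ne_top.2 ⟨ENNReal.one_ne_top, ?_⟩
  exact ENNReal.mul_ne_top ENNReal.ofReal_ne_top this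

theorem K1_ne_zero : K1 L C0 q ≠ 0 := by
  unfold K1
  have : 0 < ENNReal.ofReal ((2 : ℝ) ^ q) := ENNReal.ofReal_pos.2 (Real.rpow_pos_of_pos two_pos q)
  exact (lt_of_lt_of_le this le_self_add).ne'

theorem real_part (h : Site1 L C0 μ w) (hq : 0 < q) (r : ℝ) :
    ∫⁻ v, ‖(w v).re - r‖ₑ ^ (-q) ∂μ ≤ 1 + ENNReal.ofReal C0 * P365L.X.I2 q := by
  have := h.prob
  have hm : Measurable fun v => (w v).re := Complex.measurable_re.comp h.meas
  have hf : Measurable fun u : ℝ => ‖u - r‖ₑ ^ (-q) := by fun_prop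
  have e1 : ∫⁻ v, ‖(w v).re - r‖ₑ ^ (-q) ∂μ =
      ∫⁻ u, ‖u - r‖ₑ ^ (-q) ∂(μ.map fun v => (w v).re) := by
    rw [lintegral_map hf hm]
  have hprob : IsProbabilityMeasure (μ.map fun v => (w v).re) :=
    Measure.isProbabilityMeasure_map hm.aemeasurable
  have hg : Measurable ((Ioo (-1 : ℝ) 1).indicator fun x : ℝ => ‖x‖ₑ ^ (-q)) :=
    Measurable.indicator (by fun_prop) measurableSet_Ioo
  rw [e1]
  have hpt : ∀ u : ℝ, ‖u - r‖ₑ ^ (-q) ≤
      1 + (Ioo (-1 : ℝ) 1).indicator (fun x : ℝ => ‖x‖ₑ ^ (-q)) (u - r) := by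
    intro u
    by_cases hu : u - r ∈ Ioo (-1 : ℝ) 1
    · rw [indicator_of_mem hu]
      exact le_add_self
    · rw [indicator_of_notMem hu, add_zero]
      have h1 : (1 : ℝ≥0∞) ≤ ‖u - r‖ₑ := by
        rw [Real.enorm_eq_ofReal_abs, ← ENNReal.ofReal_one]
        refine ENNReal.ofReal_le_ofReal ?_
        rw [mem_Ioo, not_and_or, not_lt, not_lt] at hu
        rcases hu with h | h
        · rw [abs_of_nonpos (by linarith)]
          linarith
        · rw [abs_of_nonneg (by linarith)]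
          exact h
      calc ‖u - r‖ₑ ^ (-q) ≤ 1 ^ (-q) := npow_anti h1 hq.le
        _ = 1 := ENNReal.one_rpow _
  calc ∫⁻ u, ‖u - r‖ₑ ^ (-q) ∂(μ.map fun v => (w v).re)
      ≤ ∫⁻ u, (1 + (Ioo (-1 : ℝ) 1).indicator (fun x : ℝ => ‖x‖ₑ ^ (-q)) (u - r))
          ∂(μ.map fun v => (w v).re) := lintegral_mono hpt
    _ = 1 + ∫⁻ u, (Ioo (-1 : ℝ) 1).indicator (fun x : ℝ => ‖x‖ₑ ^ (-q)) (u - r)
          ∂(μ.map fun v => (w v).re) := by
        rw [lintegral_add_left measurable_const, lintegral_const, measure_univ, mul_one]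
    _ ≤ 1 + ∫⁻ u, (Ioo (-1 : ℝ) 1).indicator (fun x : ℝ => ‖x‖ₑ ^ (-q)) (u - r)
          ∂(ENNReal.ofReal C0 • (volume : Measure ℝ)) := by
        gcongr
        exact h.dens
    _ = 1 + ENNReal.ofReal C0 * P365L.X.I2 q := by
        rw [lintegral_smul_measure, lintegral_sub_right_eq_self
          (fun x => (Ioo (-1 : ℝ) 1).indicator (fun x : ℝ => ‖x‖ₑ ^ (-q)) x) r,
          lintegral_indicator measurableSet_Ioo, lint_enorm, smul_eq_mul]

/-- **one variable** -/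
theorem one_var (h : Site1 L C0 μ w) (hL : 1 ≤ L) (hq : 0 < q) (α β : ℂ) :
    ∫⁻ v, ‖α * w v + β‖ₑ ^ (-q) ∂μ ≤ K1 L C0 q * (max ‖α‖ₑ ‖β‖ₑ) ^ (-q) := by
  have := h.prob
  rcases le_or_gt (2 * L * ‖α‖) ‖β‖ with hc | hc
  · -- far from the root
    have h1 : ∀ᵐ v ∂μ, ‖α * w v + β‖ₑ ^ (-q) ≤
        ENNReal.ofReal (2 ^ q) * (max ‖α‖ₑ ‖β‖ₑ) ^ (-q) := by
      filter_upwards [h.bdd] with v hv
      have hαβ : ‖α‖ ≤ ‖β‖ := by nlinarith [norm_nonneg α]
      have hmax : max ‖α‖ₑ ‖β‖ₑ = ‖β‖ₑ := by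
        refine max_eq_right ?_
        rw [← ofReal_norm_eq_enorm, ← ofReal_norm_eq_enorm]
        exact ENNReal.ofReal_le_ofReal hαβ
      have h2 : ‖β‖ / 2 ≤ ‖α * w v + β‖ := by
        have h3 : ‖β‖ ≤ ‖α * w v + β‖ + ‖α * w v‖ := by
          calc ‖β‖ = ‖(α * w v + β) - α * w v‖ := by ring_nf
            _ ≤ _ := norm_sub_le _ _
        have h4 : ‖α * w v‖ ≤ ‖α‖ * L := by
          rw [norm_mul]
          exact mul_le_mul_of_nonneg_left hv (norm_nonneg _)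
        linarith
      have h5 : ENNReal.ofReal (1 / 2) * ‖β‖ₑ ≤ ‖α * w v + β‖ₑ := by
        rw [← ofReal_norm_eq_enorm, ← ofReal_norm_eq_enorm, ← ENNReal.ofReal_mul (by norm_num)]
        exact ENNReal.ofReal_le_ofReal (by linarith)
      rw [hmax]
      refine (npow_anti h5 hq.le).trans (le_of_eq ?_)
      rw [npow_mul (by simp) ENNReal.ofReal_ne_top hq.le]
      congr 1
      rw [ENNReal.ofReal_rpow_of_pos (by norm_num)]
      congr 1
      rw [one_div, Real.inv_rpow (by norm_num), Real.rpow_neg (by norm_num), inv_inv]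
    refine (lintegral_mono_ae h1).trans ?_
    rw [lintegral_const, measure_univ, mul_one]
    refine mul_le_mul_left ?_ _
    exact le_self_add
  · -- near the root
    have hα : 0 < ‖α‖ := by
      rcases (norm_nonneg α).eq_or_lt with h0 | h0
      · rw [← h0, mul_zero] at hc
        exact absurd hc (not_lt.2 (norm_nonneg β))
      · exact h0
    have hα0 : α ≠ 0 := norm_pos_iff.1 hα
    have hαe : ‖α‖ₑ ≠ 0 := by
      rw [Ne, enorm_eq_zero]
      exact hα0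
    have hmax : max ‖α‖ₑ ‖β‖ₑ ≤ ENNReal.ofReal (2 * L) * ‖α‖ₑ := by
      rw [← ofReal_norm_eq_enorm, ← ofReal_norm_eq_enorm, ← ENNReal.ofReal_mul (by linarith)]
      refine max_le ?_ ?_
      · exact ENNReal.ofReal_le_ofReal (by nlinarith)
      · exact ENNReal.ofReal_le_ofReal hc.le
    have h1 : ∀ v, ‖α * w v + β‖ₑ ^ (-q) ≤ ‖α‖ₑ ^ (-q) * ‖(w v).re - (-(β / α)).re‖ₑ ^ (-q) := by
      intro v
      rw [← npow_mul hαe enorm_ne_top hq.le]
      refine npow_anti ?_ hq.le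
      have e1 : α * w v + β = α * (w v - -(β / α)) := by
        field_simp
        ring
      rw [e1, enorm_mul]
      refine mul_le_mul_right ?_ _
      rw [← Complex.sub_re, ← ofReal_norm_eq_enorm, ← ofReal_norm_eq_enorm]
      refine ENNReal.ofReal_le_ofReal ?_
      rw [Real.norm_eq_abs]
      exact Complex.abs_re_le_norm _
    calc ∫⁻ v, ‖α * w v + β‖ₑ ^ (-q) ∂μ
        ≤ ∫⁻ v, ‖α‖ₑ ^ (-q) * ‖(w v).re - (-(β / α)).re‖ₑ ^ (-q) ∂μ := lintegral_mono h1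
      _ = ‖α‖ₑ ^ (-q) * ∫⁻ v, ‖(w v).re - (-(β / α)).re‖ₑ ^ (-q) ∂μ := by
          refine lintegral_const_mul' _ _ ?_
          rw [ENNReal.rpow_neg, Ne, ENNReal.inv_eq_top]
          exact (ENNReal.rpow_pos (pos_iff_ne_zero.2 hαe) enorm_ne_top).ne'
      _ ≤ ‖α‖ₑ ^ (-q) * (1 + ENNReal.ofReal C0 * P365L.X.I2 q) := by
          gcongr
          exact real_part h hq _
      _ ≤ (ENNReal.ofReal ((2 * L) ^ q) * (max ‖α‖ₑ ‖β‖ₑ) ^ (-q)) *
          (1 + ENNReal.ofReal C0 * P365L.X.I2 q) := by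
          gcongr
          have h2 := npow_anti hmax hq.le
          rw [npow_mul (by
            rw [Ne, ENNReal.ofReal_eq_zero, not_le]
            linarith) ENNReal.ofReal_ne_top hq.le] at h2
          have h3 : ENNReal.ofReal ((2 * L) ^ q) * ENNReal.ofReal (2 * L) ^ (-q) = 1 := by
            rw [ENNReal.ofReal_rpow_of_pos (by linarith), ← ENNReal.ofReal_mul (by positivity),
              ← Real.rpow_add (by linarith), add_neg_cancel, Real.rpow_zero, ENNReal.ofReal_one]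
          calc ‖α‖ₑ ^ (-q) = ENNReal.ofReal ((2 * L) ^ q) *
                (ENNReal.ofReal (2 * L) ^ (-q) * ‖α‖ₑ ^ (-q)) := by rw [← mul_assoc, h3, one_mul]
            _ ≤ _ := by gcongr
      _ = (ENNReal.ofReal ((2 * L) ^ q) * (1 + ENNReal.ofReal C0 * P365L.X.I2 q)) *
          (max ‖α‖ₑ ‖β‖ₑ) ^ (-q) := by ring
      _ ≤ K1 L C0 q * (max ‖α‖ₑ ‖β‖ₑ) ^ (-q) := by
          refine mul_le_mul_left ?_ _
          exact le_add_self

/-- **two variables**: a bilinear denominator -/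
theorem two_var (h₁ : Site1 L C0 μ₁ w₁) (h₂ : Site1 L C0 μ₂ w₂) (hL : 1 ≤ L) (hq : 0 < q)
    (a b c d : ℂ) :
    ∫⁻ v, ∫⁻ u, ‖d + c * w₂ v + b * w₁ u + a * w₁ u * w₂ v‖ₑ ^ (-q) ∂μ₁ ∂μ₂ ≤
      K1 L C0 q ^ 2 * (max (max ‖a‖ₑ ‖b‖ₑ) (max ‖c‖ₑ ‖d‖ₑ)) ^ (-q) := by
  have h1 : ∀ v, ∫⁻ u, ‖d + c * w₂ v + b * w₁ u + a * w₁ u * w₂ v‖ₑ ^ (-q) ∂μ₁ ≤
      K1 L C0 q * (max ‖a * w₂ v + b‖ₑ ‖c * w₂ v + d‖ₑ) ^ (-q) := by
    intro v
    refine le_trans (le_of_eq ?_) (one_var h₁ hL hq (a * w₂ v + b) (c * w₂ v + d))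
    refine lintegral_congr fun u => ?_
    congr 2
    ring
  have hmon : ∀ v, (max ‖a * w₂ v + b‖ₑ ‖c * w₂ v + d‖ₑ) ^ (-q) ≤ ‖a * w₂ v + b‖ₑ ^ (-q) :=
    fun v => npow_anti (le_max_left _ _) hq.le
  have hmon' : ∀ v, (max ‖a * w₂ v + b‖ₑ ‖c * w₂ v + d‖ₑ) ^ (-q) ≤ ‖c * w₂ v + d‖ₑ ^ (-q) :=
    fun v => npow_anti (le_max_right _ _) hq.le
  have hK : K1 L C0 q ≠ ∞ ∨ True := Or.inr trivial
  refine (lintegral_mono h1).trans ?_
  have hmeas : Measurable fun v => (max ‖a * w₂ v + b‖ₑ ‖c * w₂ v + d‖ₑ) ^ (-q) := by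
    have := h₂.meas
    fun_prop
  rw [lintegral_const_mul _ hmeas, sq, mul_assoc]
  refine mul_le_mul_right ?_ _
  rcases le_total (max ‖a‖ₑ ‖b‖ₑ) (max ‖c‖ₑ ‖d‖ₑ) with h | h
  · rw [max_eq_right h]
    exact (lintegral_mono hmon').trans (one_var h₂ hL hq c d)
  · rw [max_eq_left h]
    exact (lintegral_mono hmon).trans (one_var h₂ hL hq a b)

/-- shift by `i` -/
theorem Site1.add_I (h : Site1 L C0 μ w) : Site1 (L + 1) C0 μ (fun v => w v + I) where
  prob := h.prob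
  meas := h.meas.add_const _
  bdd := by
    filter_upwards [h.bdd] with v hv
    refine (norm_add_le _ _).trans ?_
    rw [Complex.norm_I]
    linarith
  dens := by
    have e : (fun v => (w v + I).re) = fun v => (w v).re := by
      funext v
      simp
    rw [e]
    exact h.dens

end P365T2.H413
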