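import Vale.Agent.P365.T2.H413.Apri

set_option linter.all false

/-!
# P365 / T2 / H413 / Apri2: the a priori bound for the fractional moments of the Green function.
-/

namespace P365T2.H413

open MeasureTheory Set Complex P365L Matrix
open scoped ENNReal Real

variable {ι : Type*} [Fintype ι] [DecidableEq ι] {A : Matrix ι ι ℝ} {L C0 q : ℝ}

/-! ### two-site formula -/

theorem upd_im {W : ι → ℂ} (hW : ∀ x, (W x).im < 0) (i : ι) {w : ℂ} (hw : w.im < 0) (x : ι) :
    (Function.update W i w x).im < 0 := by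
  by_cases hx : x = i
  · subst hx
    rwa [Function.update_self]
  · rw [Function.update_of_ne hx]
    exact hW x

/-- algebra of one update -/
theorem alg_one {C B t : ℂ} (h : 1 + t * B ≠ 0) : C - C * B * (t / (1 + t * B)) = C / (1 + t * B) := by
  rw [eq_div_iff h, sub_mul, mul_assoc _ (t / (1 + t * B)), div_mul_cancel₀ _ h]
  ring

/-- algebra of two updates -/
theorem alg_two {a b c c' s t : ℂ} (h1 : 1 + s * a ≠ 0)
    (h3 : 1 + t * (b - c' * c * (s / (1 + s * a))) ≠ 0) :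
    (1 + t * b + s * a + s * t * (a * b - c * c')) ≠ 0 ∧
    (c - a * c * (s / (1 + s * a))) -
      (c - a * c * (s / (1 + s * a))) * (b - c' * c * (s / (1 + s * a))) *
        (t / (1 + t * (b - c' * c * (s / (1 + s * a))))) =
      c / (1 + t * b + s * a + s * t * (a * b - c * c')) := by
  obtain ⟨x, hx⟩ : ∃ x, x = s / (1 + s * a) := ⟨_, rfl⟩
  have hx' : x * (1 + s * a) = s := by rw [hx, div_mul_cancel₀ _ h1]
  rw [← hx] at h3 ⊢
  have e : (1 + s * a) * (1 + t * (b - c' * c * x)) =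
      1 + t * b + s * a + s * t * (a * b - c * c') := by
    linear_combination (-(t * c' * c)) * hx'
  have hD : 1 + t * b + s * a + s * t * (a * b - c * c') ≠ 0 := by
    rw [← e]
    exact mul_ne_zero h1 h3
  refine ⟨hD, ?_⟩
  rw [alg_one h3, ← e]
  have hC : c = (1 + s * a) * (c - a * c * x) := by
    linear_combination (a * c) * hx'
  conv_rhs => rw [hC]
  rw [mul_div_mul_left _ _ h1]
  congr 1
  rw [← hC]

theorem Gr_diag (hA : A.IsSymm) {W : ι → ℂ} (hW : ∀ x, (W x).im < 0) (i : ι) {s : ℂ}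
    (hs : (W i + s).im < 0) : 1 + s * Gr A W i i ≠ 0 ∧
    Gr A (Function.update W i (W i + s)) i i = Gr A W i i / (1 + s * Gr A W i i) := by
  obtain ⟨h1, h2⟩ := Gr_update hA hW i s hs
  exact ⟨h1, by rw [h2, alg_one h1]⟩

theorem Gr_two (hA : A.IsSymm) {W : ι → ℂ} (hW : ∀ x, (W x).im < 0) {i j : ι} (hij : i ≠ j)
    {s t : ℂ} (hs : (W i + s).im < 0) (ht : (W j + t).im < 0) :
    (1 + t * Gr A W j j + s * Gr A W i i +
        s * t * (Gr A W i i * Gr A W j j - Gr A W i j * Gr A W j i)) ≠ 0 ∧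
      Gr A (Function.update (Function.update W i (W i + s)) j (W j + t)) i j =
        Gr A W i j / (1 + t * Gr A W j j + s * Gr A W i i +
          s * t * (Gr A W i i * Gr A W j j - Gr A W i j * Gr A W j i)) := by
  obtain ⟨h1, h2⟩ := Gr_update hA hW i s hs
  obtain ⟨W1, hW1⟩ : ∃ W1, W1 = Function.update W i (W i + s) := ⟨_, rfl⟩
  have hn : ∀ x, (W1 x).im < 0 := by
    rw [hW1]
    exact upd_im hW i hs
  have hj : W1 j = W j := by
    rw [hW1, Function.update_of_ne (Ne.symm hij)]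
  have ht' : (W1 j + t).im < 0 := by rw [hj]; exact ht
  obtain ⟨h3, h4⟩ := Gr_update hA hn j t ht'
  rw [hj] at h4
  rw [← hW1] at h2 ⊢
  rw [h2 j j] at h3
  rw [h4, h2 i j, h2 j j]
  exact alg_two h1 h3

/-! ### the a priori bound -/

/-- the a priori constant -/
noncomputable def Kap (L C0 q : ℝ) : ℝ≥0∞ :=
  ENNReal.ofReal (2 ^ q) * (1 + K1 (L + 1) C0 q + K1 (L + 1) C0 q ^ 2)

theorem Kap_ne_top (hq : q < 1) : Kap L C0 q ≠ ∞ := by
  unfold Kap
  have := K1_ne_top (L := L + 1) (C0 := C0) hq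
  refine ENNReal.mul_ne_top ENNReal.ofReal_ne_top ?_
  refine ENNReal.add_ne_top.2 ⟨ENNReal.add_ne_top.2 ⟨ENNReal.one_ne_top, this⟩, ?_⟩
  exact ENNReal.pow_ne_top this

/-- the world: laws and dressed potentials -/
structure World {Ω : Type*} [MeasurableSpace Ω] (L C0 : ℝ) (μ : ι → Measure Ω) (w : ι → Ω → ℂ) : Prop where
  one_le : 1 ≤ L
  site : ∀ x, Site1 L C0 (μ x) (w x)
  neg : ∀ x v, (w x v).im < 0

/-- fractional power of the Green function -/
noncomputable def gq {Ω : Type*} (A : Matrix ι ι ℝ) (w : ι → Ω → ℂ) (q : ℝ) (x y : ι) (v : ι → Ω) : ℝ≥0∞ :=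
  ‖Gr A (fun z => w z (v z)) x y‖ₑ ^ q

variable {Ω : Type*} [MeasurableSpace Ω] {μ : ι → Measure Ω} {w : ι → Ω → ℂ}

theorem measurable_gq (h : ∀ x, Measurable (w x)) (x y : ι) : Measurable (gq A w q x y) := by
  unfold gq
  have := measurable_Gr (A := A) (fun v : ι → Ω => fun z => w z (v z))
    (fun z => (h z).comp (measurable_pi_apply z)) x y
  fun_prop

theorem gq_comm (hA : A.IsSymm) (x y : ι) : gq A w q x y = gq A w q y x := by
  funext v
  unfold gq
  rw [Gr_symm hA]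

/-- numbers: the ratio -/
theorem ratio_bound (hq : 0 < q) {g m : ℝ≥0∞} (hm : 1 ≤ m) (hm' : m ≠ ∞) (hg : g ≤ 2 * m) :
    g ^ q * m ^ (-q) ≤ ENNReal.ofReal (2 ^ q) := by
  have hm0 : m ≠ 0 := (lt_of_lt_of_le one_pos hm).ne'
  calc g ^ q * m ^ (-q) ≤ (2 * m) ^ q * m ^ (-q) := by gcongr
    _ = 2 ^ q * (m ^ q * m ^ (-q)) := by
        rw [ENNReal.mul_rpow_of_nonneg _ _ hq.le, mul_assoc]
    _ = 2 ^ q := by
        rw [← ENNReal.rpow_add _ _ hm0 hm', add_neg_cancel, ENNReal.rpow_zero, mul_one]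
    _ = ENNReal.ofReal (2 ^ q) := by
        rw [← ENNReal.ofReal_rpow_of_pos two_pos, ENNReal.ofReal_ofNat]

theorem enorm_div' {x y : ℂ} (hy : y ≠ 0) (hq : 0 < q) :
    ‖x / y‖ₑ ^ q = ‖x‖ₑ ^ q * ‖y‖ₑ ^ (-q) := by
  have hy' : ‖y‖ₑ ≠ 0 := by rwa [Ne, enorm_eq_zero]
  rw [div_eq_mul_inv, enorm_mul, enorm_inv hy, ENNReal.mul_rpow_of_nonneg _ _ hq.le,
    ENNReal.inv_rpow, ENNReal.rpow_neg]

/-- diagonal entries -/
theorem apri_diag (h : World L C0 μ w) (hA : A.IsSymm) (hq : 0 < q) (x : ι) (v : ι → Ω) :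
    ∫⁻ u, gq A w q x x (Function.update v x u) ∂(μ x) ≤ Kap L C0 q := by
  obtain ⟨W, hWd⟩ : ∃ W : ι → ℂ, W = Function.update (fun z => w z (v z)) x (-I) := ⟨_, rfl⟩
  have hI : ((-I : ℂ)).im < 0 := by simp
  have hW : ∀ z, (W z).im < 0 := by
    rw [hWd]
    exact upd_im (fun z => h.neg z _) x hI
  have hWx : W x = -I := by rw [hWd, Function.update_self]
  have e0 : ∀ u, (fun z => w z (Function.update v x u z)) =
      Function.update W x (W x + (w x u + I)) := by
    intro u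
    funext z
    by_cases hz : z = x
    · subst hz
      rw [Function.update_self, Function.update_self, hWx]
      ring
    · rw [Function.update_of_ne hz, Function.update_of_ne hz, hWd, Function.update_of_ne hz]
  have hs : ∀ u, (W x + (w x u + I)).im < 0 := by
    intro u
    rw [hWx]
    have := h.neg x u
    simpa using this
  have e1 : ∀ u, gq A w q x x (Function.update v x u) =
      ‖Gr A W x x‖ₑ ^ q * ‖Gr A W x x * (w x u + I) + 1‖ₑ ^ (-q) := by
    intro u
    unfold gq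
    obtain ⟨h1, h2⟩ := Gr_diag hA hW x (hs u)
    rw [e0 u, h2, enorm_div' h1 hq]
    congr 3
    ring
  simp_rw [e1]
  rw [lintegral_const_mul']
  swap
  · exact ENNReal.rpow_ne_top_of_nonneg hq.le enorm_ne_top
  have h3 := one_var ((h.site x).add_I) (by linarith [h.one_le]) hq (Gr A W x x) 1
  obtain ⟨m, hm⟩ : ∃ m, m = max ‖Gr A W x x‖ₑ ‖(1 : ℂ)‖ₑ := ⟨_, rfl⟩
  rw [← hm] at h3
  have hm1 : 1 ≤ m := by
    rw [hm, enorm_one]
    exact le_max_right _ _
  have hmt : m ≠ ∞ := by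
    rw [hm]
    exact (max_lt enorm_lt_top enorm_lt_top).ne
  have hg : ‖Gr A W x x‖ₑ ≤ 2 * m := by
    calc ‖Gr A W x x‖ₑ ≤ m := by rw [hm]; exact le_max_left _ _
      _ = 1 * m := (one_mul m).symm
      _ ≤ 2 * m := by gcongr; norm_num
  calc ‖Gr A W x x‖ₑ ^ q * ∫⁻ u, ‖Gr A W x x * (w x u + I) + 1‖ₑ ^ (-q) ∂(μ x)
      ≤ ‖Gr A W x x‖ₑ ^ q * (K1 (L + 1) C0 q * m ^ (-q)) := by gcongr
    _ = (‖Gr A W x x‖ₑ ^ q * m ^ (-q)) * K1 (L + 1) C0 q := by ring
    _ ≤ ENNReal.ofReal (2 ^ q) * K1 (L + 1) C0 q := by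
        gcongr
        exact ratio_bound hq hm1 hmt hg
    _ ≤ Kap L C0 q := by
        unfold Kap
        refine mul_le_mul_right ?_ _
        rw [add_assoc, add_comm 1, add_assoc]
        exact le_self_add

theorem two_max {a b c d : ℂ} {g : ℂ} (hd : d = 1) (hg : g * g = b * c - a) {m : ℝ≥0∞}
    (hm : m = max (max ‖a‖ₑ ‖b‖ₑ) (max ‖c‖ₑ ‖d‖ₑ)) : 1 ≤ m ∧ m ≠ ∞ ∧ ‖g‖ₑ ≤ 2 * m := by
  have hm1 : 1 ≤ m := by
    rw [hm, hd, enorm_one]
    exact (le_max_right _ _).trans (le_max_right _ _)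
  have hmt : m ≠ ∞ := by
    rw [hm]
    exact (max_lt (max_lt enorm_lt_top enorm_lt_top) (max_lt enorm_lt_top enorm_lt_top)).ne
  refine ⟨hm1, hmt, ?_⟩
  have ha : ‖a‖ₑ ≤ m := by rw [hm]; exact (le_max_left _ _).trans (le_max_left _ _)
  have hb : ‖b‖ₑ ≤ m := by rw [hm]; exact (le_max_right _ _).trans (le_max_left _ _)
  have hc : ‖c‖ₑ ≤ m := by rw [hm]; exact (le_max_left _ _).trans (le_max_right _ _)
  have h1 : ‖g‖ₑ * ‖g‖ₑ ≤ m * m + m * m := by
    rw [← enorm_mul, hg]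
    refine enorm_sub_le.trans (add_le_add ?_ ?_)
    · rw [enorm_mul]
      exact mul_le_mul' hb hc
    · calc ‖a‖ₑ ≤ m := ha
        _ = 1 * m := (one_mul m).symm
        _ ≤ m * m := by gcongr
  by_contra hcon
  rw [not_le] at hcon
  have h2 : (2 * m) * (2 * m) < ‖g‖ₑ * ‖g‖ₑ := ENNReal.mul_lt_mul hcon hcon
  have h3 : m * m + m * m ≤ (2 * m) * (2 * m) := by
    calc m * m + m * m = 2 * (m * m) := (two_mul _).symm
      _ ≤ 4 * (m * m) := by gcongr; norm_num
      _ = (2 * m) * (2 * m) := by ring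
  exact absurd (h2.trans_le h1) (not_lt.2 h3)

/-- off-diagonal entries -/
theorem apri_off (h : World L C0 μ w) (hA : A.IsSymm) (hq : 0 < q) {x y : ι} (hxy : x ≠ y)
    (v : ι → Ω) :
    ∫⁻ t, ∫⁻ u, gq A w q x y (Function.update (Function.update v y t) x u) ∂(μ x) ∂(μ y) ≤
      Kap L C0 q := by
  obtain ⟨W, hWd⟩ : ∃ W : ι → ℂ, W = Function.update (Function.update (fun z => w z (v z)) x (-I))
    y (-I) := ⟨_, rfl⟩
  have hI : ((-I : ℂ)).im < 0 := by simp
  have hW : ∀ z, (W z).im < 0 := by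
    rw [hWd]
    exact upd_im (upd_im (fun z => h.neg z _) x hI) y hI
  have hWx : W x = -I := by
    rw [hWd, Function.update_of_ne hxy, Function.update_self]
  have hWy : W y = -I := by rw [hWd, Function.update_self]
  have e0 : ∀ t u, (fun z => w z (Function.update (Function.update v y t) x u z)) =
      Function.update (Function.update W x (W x + (w x u + I))) y (W y + (w y t + I)) := by
    intro t u
    funext z
    by_cases hz : z = x
    · subst hz
      rw [Function.update_self, Function.update_of_ne hxy, Function.update_self, hWx]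
      ring
    · by_cases hz' : z = y
      · subst hz'
        rw [Function.update_of_ne hz, Function.update_self, Function.update_self, hWy]
        ring
      · rw [Function.update_of_ne hz, Function.update_of_ne hz', Function.update_of_ne hz',
          Function.update_of_ne hz, hWd, Function.update_of_ne hz', Function.update_of_ne hz]
  have hs : ∀ u, (W x + (w x u + I)).im < 0 := by
    intro u
    rw [hWx]
    have := h.neg x u
    simpa using this
  have ht : ∀ t, (W y + (w y t + I)).im < 0 := by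
    intro t
    rw [hWy]
    have := h.neg y t
    simpa using this
  obtain ⟨a, ha⟩ : ∃ a, a = Gr A W x x * Gr A W y y - Gr A W x y * Gr A W y x := ⟨_, rfl⟩
  have e1 : ∀ t u, gq A w q x y (Function.update (Function.update v y t) x u) =
      ‖Gr A W x y‖ₑ ^ q * ‖1 + Gr A W y y * (w y t + I) + Gr A W x x * (w x u + I) +
        a * (w x u + I) * (w y t + I)‖ₑ ^ (-q) := by
    intro t u
    unfold gq
    obtain ⟨h1, h2⟩ := Gr_two hA hW hxy (hs u) (ht t)
    rw [e0 t u, h2, enorm_div' h1 hq]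
    congr 3
    rw [ha]
    ring
  simp_rw [e1]
  have hgt : ‖Gr A W x y‖ₑ ^ q ≠ ∞ := ENNReal.rpow_ne_top_of_nonneg hq.le enorm_ne_top
  simp_rw [lintegral_const_mul' _ _ hgt]
  have h3 := two_var ((h.site x).add_I) ((h.site y).add_I) (by linarith [h.one_le]) hq a
    (Gr A W x x) (Gr A W y y) 1
  obtain ⟨m, hm⟩ : ∃ m, m = max (max ‖a‖ₑ ‖Gr A W x x‖ₑ) (max ‖Gr A W y y‖ₑ ‖(1 : ℂ)‖ₑ) :=
    ⟨_, rfl⟩
  rw [← hm] at h3
  obtain ⟨hm1, hmt, hg⟩ := two_max (g := Gr A W x y) rfl (by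
    rw [ha, Gr_symm hA y x]
    ring) hm
  calc ‖Gr A W x y‖ₑ ^ q * ∫⁻ t, ∫⁻ u, ‖1 + Gr A W y y * (w y t + I) + Gr A W x x * (w x u + I) +
        a * (w x u + I) * (w y t + I)‖ₑ ^ (-q) ∂(μ x) ∂(μ y)
      ≤ ‖Gr A W x y‖ₑ ^ q * (K1 (L + 1) C0 q ^ 2 * m ^ (-q)) := by gcongr
    _ = (‖Gr A W x y‖ₑ ^ q * m ^ (-q)) * K1 (L + 1) C0 q ^ 2 := by ring
    _ ≤ ENNReal.ofReal (2 ^ q) * K1 (L + 1) C0 q ^ 2 := by
        gcongr
        exact ratio_bound hq hm1 hmt hg
    _ ≤ Kap L C0 q := by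
        unfold Kap
        refine mul_le_mul_right ?_ _
        exact le_add_self

theorem lmarginal_le_const {δ : Type*} {X : δ → Type*} [∀ i, MeasurableSpace (X i)]
    [DecidableEq δ] (ν : ∀ i, Measure (X i)) [∀ i, IsProbabilityMeasure (ν i)] (s : Finset δ)
    {f : (∀ i, X i) → ℝ≥0∞} {K : ℝ≥0∞} (h : ∀ v, f v ≤ K) (v : ∀ i, X i) :
    (∫⋯∫⁻_s, f ∂ν) v ≤ K := by
  unfold lmarginal
  refine (lintegral_mono fun _ => h _).trans ?_
  rw [lintegral_const, measure_univ, mul_one]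

/-- **A PRIORI BOUND**, all other potentials frozen -/
theorem apri_lm (h : World L C0 μ w) (hA : A.IsSymm) (hq : 0 < q) (x y : ι) (v : ι → Ω) :
    (∫⋯∫⁻_{x, y}, gq A w q x y ∂μ) v ≤ Kap L C0 q := by
  have hp : ∀ z, IsProbabilityMeasure (μ z) := fun z => (h.site z).prob
  by_cases hxy : x = y
  · subst hxy
    rw [Finset.pair_eq_singleton, lmarginal_singleton]
    exact apri_diag h hA hq x v
  · have hm := measurable_gq (A := A) (q := q) (fun z => (h.site z).meas) x y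
    have e : ({x, y} : Finset ι) = insert y {x} := by
      ext z
      simp [or_comm]
    rw [e, lmarginal_insert _ hm (by simpa using Ne.symm hxy)]
    simp_rw [lmarginal_singleton]
    exact apri_off h hA hq hxy v

/-- **A PRIORI BOUND** in expectation -/
theorem apri (h : World L C0 μ w) (hA : A.IsSymm) (hq : 0 < q) (x y : ι) :
    ∫⁻ v, gq A w q x y v ∂(Measure.pi μ) ≤ Kap L C0 q := by
  have hp : ∀ z, IsProbabilityMeasure (μ z) := fun z => (h.site z).prob
  have hm := measurable_gq (A := A) (q := q) (fun z => (h.site z).meas) x y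
  have hne : Nonempty Ω := (μ x).nonempty_of_neZero
  rw [lintegral_eq_lmarginal_univ (fun _ => Classical.arbitrary Ω)]
  have e : (Finset.univ : Finset ι) = (Finset.univ \ {x, y}) ∪ {x, y} := by
    rw [Finset.sdiff_union_of_subset (Finset.subset_univ _)]
  rw [e, lmarginal_union _ _ hm Finset.sdiff_disjoint]
  exact lmarginal_le_const μ _ (fun v => apri_lm h hA hq x y v) _

end P365T2.H413
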